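import Vale.Agent.P038.H50.Quad

/-!
# (QUAD) ⟹ (ROT) ⟹ contradiction with (G)
-/

namespace Vale.Agent.P038.H50N

open Finset
open scoped Classical

noncomputable section

variable {V : Type*} [Fintype V]

def Q2 (w : V → ℝ) (g : V → V → ℝ) : ℝ := ∑ a, w a * ∑ b, w b * g a b

def m2 (w : V → ℝ) (S : V → V → Prop) : ℝ := Q2 w fun a b => ind (S a b)

theorem m2_rows (w : V → ℝ) (S : V → V → Prop) : m2 w S = ∑ a, w a * Wp w (S a) := rfl

theorem Q2_mono {w : V → ℝ} (hw : ∀ v, 0 ≤ w v) {g h : V → V → ℝ} (H : ∀ a b, g a b ≤ h a b) :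
    Q2 w g ≤ Q2 w h :=
  Finset.sum_le_sum fun a _ => mul_le_mul_of_nonneg_left
    (Finset.sum_le_sum fun b _ => mul_le_mul_of_nonneg_left (H a b) (hw b)) (hw a)

theorem Q2_add (w : V → ℝ) (g h : V → V → ℝ) :
    Q2 w (fun a b => g a b + h a b) = Q2 w g + Q2 w h := by
  unfold Q2
  rw [← Finset.sum_add_distrib]
  refine Finset.sum_congr rfl fun a _ => ?_
  rw [← mul_add, ← Finset.sum_add_distrib]
  congr 1
  exact Finset.sum_congr rfl fun b _ => by ring

theorem Q2_swap (w : V → ℝ) (g : V → V → ℝ) : Q2 w (fun a b => g b a) = Q2 w g := by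
  unfold Q2
  simp only [Finset.mul_sum]
  rw [Finset.sum_comm]
  refine Finset.sum_congr rfl fun a _ => Finset.sum_congr rfl fun b _ => by ring

theorem m2_swap (w : V → ℝ) (S : V → V → Prop) : m2 w (fun a b => S b a) = m2 w S :=
  Q2_swap w _

theorem m2_mono {w : V → ℝ} (hw : ∀ v, 0 ≤ w v) {S T : V → V → Prop}
    (h : ∀ a b, S a b → T a b) : m2 w S ≤ m2 w T := by
  refine Q2_mono hw fun a b => ?_
  by_cases hs : S a b
  · rw [ind_true hs, ind_true (h a b hs)]
  · rw [ind_false hs]; exact ind_nonneg _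

theorem m2_lin32 {w : V → ℝ} (hw : ∀ v, 0 ≤ w v) {S1 S2 S3 T1 T2 : V → V → Prop}
    (h : ∀ a b, ind (S1 a b) + ind (S2 a b) + ind (S3 a b) ≤ ind (T1 a b) + ind (T2 a b)) :
    m2 w S1 + m2 w S2 + m2 w S3 ≤ m2 w T1 + m2 w T2 := by
  unfold m2
  rw [← Q2_add, ← Q2_add, ← Q2_add]
  exact Q2_mono hw h

theorem m2_lin23 {w : V → ℝ} (hw : ∀ v, 0 ≤ w v) {S1 S2 S3 T1 T2 : V → V → Prop}
    (h : ∀ a b, ind (T1 a b) + ind (T2 a b) ≤ ind (S1 a b) + ind (S2 a b) + ind (S3 a b)) :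
    m2 w T1 + m2 w T2 ≤ m2 w S1 + m2 w S2 + m2 w S3 := by
  unfold m2
  rw [← Q2_add, ← Q2_add, ← Q2_add]
  exact Q2_mono hw h

/-! ### QUAD, averaged over the thresholds -/

section quad

variable (R E1 E2 : V → V → Prop) (w : V → ℝ) (K : ℕ)

def Sb (b a : V) : Prop := ∃ x, R x b ∧ E1 x a
def Tb (b y : V) : Prop := E2 y b
def Tx (x y : V) : Prop := ∃ b, R x b ∧ E2 y b
def Gk (k : ℕ) (b a : V) : Prop := Sb R E1 b a ∧ ¬ Mk R w (Tb E2 b) (Sb R E1 b) K k a
def Hk (b a : V) : Prop := Mk R w (Tb E2 b) (Sb R E1 b) K K a ∧ ∃ y, R y a ∧ E2 y b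
def V1 (G : V → V → Prop) (x a : V) : Prop := E1 x a ∧ ∃ b, R x b ∧ G b a
def V2 (H : V → V → Prop) (y b : V) : Prop := E2 y b ∧ ∃ a, R y a ∧ H b a
def UB (x y : V) : Prop := (∃ a, R y a ∧ E1 x a) ∧ ∃ b, R x b ∧ E2 y b
def U1 (b a : V) : Prop := (∃ x, R x b ∧ E1 x a) ∧ ∃ y, R y a ∧ E2 y b

variable {R E1 E2 w K}

theorem v1_row (hw : ∀ v, 0 ≤ w v) (hK : 0 < K) (x : V) :
    ∑ k ∈ range K, Wp w (V1 R E1 (Gk R E1 E2 w K k) x) ≤
      K * Wp w (UB R E1 E2 x) + Wp w (fun _ => True) := by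
  have h1 : ∀ k ∈ range K, Wp w (V1 R E1 (Gk R E1 E2 w K k) x) ≤
      Wp w (fun v => E1 x v ∧ ¬ Mk R w (Tx R E2 x) (E1 x) K k v) := by
    intro k _
    refine Wp_mono hw ?_
    rintro a ⟨ha, b, hb, hG⟩
    refine ⟨ha, fun hM => hG.2 ?_⟩
    exact Mx_mono hw (fun y hy => ⟨b, hb, hy⟩) (fun v hv => ⟨x, hb, hv⟩) le_rfl hM
  have h2 := row_est (R := R) hw (Tx R E2 x) (E1 x) hK
  have h3 : cov R w (Tx R E2 x) (E1 x) ≤ Wp w (UB R E1 E2 x) := by
    refine Wp_mono hw ?_
    rintro y ⟨hy, a, ha, hr⟩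
    exact ⟨⟨a, hr, ha⟩, hy⟩
  have hK' : (0 : ℝ) ≤ K := Nat.cast_nonneg _
  calc _ ≤ _ := Finset.sum_le_sum h1
    _ ≤ _ := h2
    _ ≤ _ := by linarith [mul_le_mul_of_nonneg_left h3 hK']

theorem v2_col (hw : ∀ v, 0 ≤ w v) (hK : 0 < K) (b : V) :
    (K : ℝ) * Wp w (fun y => V2 R E2 (Hk R E1 E2 w K) y b) ≤
      ∑ k ∈ range K, Wp w (fun a => Gk R E1 E2 w K k b a ∧ Hk R E1 E2 w K b a) := by
  have hK' : (0 : ℝ) ≤ K := Nat.cast_nonneg _
  have h1 := col_est (R := R) hw (Tb E2 b) (Sb R E1 b) hK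
  have h2 : Wp w (fun y => V2 R E2 (Hk R E1 E2 w K) y b) ≤
      cov R w (Tb E2 b) (Mk R w (Tb E2 b) (Sb R E1 b) K K) := by
    refine Wp_mono hw ?_
    rintro y ⟨hy, a, hr, hH⟩
    exact ⟨hy, a, hH.1, hr⟩
  have h3 : ∀ k ∈ range K, Wp w (fun v => Mk R w (Tb E2 b) (Sb R E1 b) K K v ∧
      ¬ Mk R w (Tb E2 b) (Sb R E1 b) K k v) ≤
      Wp w (fun a => Gk R E1 E2 w K k b a ∧ Hk R E1 E2 w K b a) := by
    intro k _
    refine Wp_mono hw ?_
    rintro a ⟨hK1, hk1⟩
    have hS : Sb R E1 b a := Mx_sub hK1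
    have hy : ∃ y, R y a ∧ E2 y b := by
      by_contra hn
      refine hk1 (Mx_of_uncov hw (by positivity) hS ?_)
      rintro ⟨y, hy, hr⟩
      exact hn ⟨y, hr, hy⟩
    exact ⟨⟨hS, hk1⟩, hK1, hy⟩
  calc _ ≤ _ := mul_le_mul_of_nonneg_left h2 hK'
    _ ≤ _ := h1
    _ ≤ _ := Finset.sum_le_sum h3

theorem quad_avg (hw : ∀ v, 0 ≤ w v) (hK : 0 < K) :
    ∑ k ∈ range K, (m2 w (V1 R E1 (Gk R E1 E2 w K k)) + m2 w (V2 R E2 (Hk R E1 E2 w K)) -
      m2 w (fun b a => Gk R E1 E2 w K k b a ∧ Hk R E1 E2 w K b a)) ≤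
      K * m2 w (UB R E1 E2) + m2 w (fun _ _ => True) := by
  rw [Finset.sum_sub_distrib, Finset.sum_add_distrib, Finset.sum_const, card_range,
    nsmul_eq_mul]
  have h1 : ∑ k ∈ range K, m2 w (V1 R E1 (Gk R E1 E2 w K k)) ≤
      K * m2 w (UB R E1 E2) + m2 w (fun _ _ => True) := by
    simp only [m2_rows]
    rw [Finset.sum_comm, Finset.mul_sum, ← Finset.sum_add_distrib]
    refine Finset.sum_le_sum fun x _ => ?_
    rw [← Finset.mul_sum]
    have := mul_le_mul_of_nonneg_left (v1_row (R := R) (E1 := E1) (E2 := E2) hw hK x) (hw x)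
    calc _ ≤ _ := this
      _ = _ := by ring
  have h2 : (K : ℝ) * m2 w (V2 R E2 (Hk R E1 E2 w K)) ≤
      ∑ k ∈ range K, m2 w (fun b a => Gk R E1 E2 w K k b a ∧ Hk R E1 E2 w K b a) := by
    rw [← m2_swap w (V2 R E2 (Hk R E1 E2 w K))]
    simp only [m2_rows]
    rw [Finset.sum_comm, Finset.mul_sum]
    refine Finset.sum_le_sum fun b _ => ?_
    rw [← Finset.mul_sum]
    have := mul_le_mul_of_nonneg_left (v2_col (R := R) (E1 := E1) (E2 := E2) hw hK b) (hw b)
    calc _ = _ := by ring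
      _ ≤ _ := this
  linarith

theorem cover (hw : ∀ v, 0 ≤ w v) {k : ℕ} (hk : k ≤ K) {b a : V} (h : U1 R E1 E2 b a) :
    Gk R E1 E2 w K k b a ∨ Hk R E1 E2 w K b a := by
  by_cases hM : Mk R w (Tb E2 b) (Sb R E1 b) K k a
  · right
    refine ⟨Mx_mono hw (fun _ h => h) (fun _ h => h) ?_ hM, h.2⟩
    have : (k : ℝ) ≤ K := by exact_mod_cast hk
    exact div_le_div_of_nonneg_right this (Nat.cast_nonneg _)
  · exact Or.inl ⟨h.1, hM⟩

theorem Gk_sub (hw : ∀ v, 0 ≤ w v) {k : ℕ} {b a : V} (h : Gk R E1 E2 w K k b a) :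
    U1 R E1 E2 b a := by
  refine ⟨h.1, ?_⟩
  by_contra hn
  refine h.2 (Mx_of_uncov hw (by positivity) h.1 ?_)
  rintro ⟨y, hy, hr⟩
  exact hn ⟨y, hr, hy⟩

theorem Hk_sub {b a : V} (h : Hk R E1 E2 w K b a) : U1 R E1 E2 b a := by
  have hS : Sb R E1 b a := Mx_sub h.1
  exact ⟨hS, h.2⟩

end quad

/-! ### The rotation -/

section rot

variable (R : V → V → Prop)

/-- rows moved forward -/
def RA (S : V → V → Prop) (a y : V) : Prop := ∃ x, R x y ∧ S a x

/-- right interior -/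
def IR (S : V → V → Prop) (a x : V) : Prop := ∀ y, R x y → S a y

structure Comp (P Q : V → V → Prop) : Prop where
  l : ∀ a b, R a b → P a b
  r : ∀ a b, R a b → Q a b
  ne : ∀ a b, P a b → Q b a → a = b

def inner (w : V → ℝ) (P Q : V → V → Prop) : ℝ :=
  m2 w P - m2 w (IR R P) + (m2 w Q - m2 w (IR R Q))

def outer (w : V → ℝ) (B C : V → V → Prop) : ℝ :=
  m2 w (RA R B) - m2 w B + (m2 w (RA R C) - m2 w C)

variable {R}

def PP (R B : V → V → Prop) (U G H : V → V → Prop) (b a : V) : Prop :=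
  R b a ∨ (¬ R a b ∧ ((¬ U b a ∧ ∀ x, R x b → RA R B x a) ∨ (G b a ∧ ¬ H b a)))

def QQ (R B : V → V → Prop) (U G H : V → V → Prop) (a b : V) : Prop :=
  R a b ∨ (¬ R b a ∧ ((¬ U b a ∧ ¬ ∀ x, R x b → RA R B x a) ∨ (H b a ∧ ¬ G b a)))

theorem rot_step (hR : ∀ a, R a a) (hor : ∀ a b, R a b → R b a → a = b) {w : V → ℝ}
    (hw : ∀ v, 0 ≤ w v) {B C : V → V → Prop} (hBC : Comp R B C) {G H : V → V → Prop}
    (hG : ∀ b a, G b a → U1 R (fun x a => ¬ RA R B x a) (fun y b => ¬ RA R C y b) b a)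
    (hH : ∀ b a, H b a → U1 R (fun x a => ¬ RA R B x a) (fun y b => ¬ RA R C y b) b a)
    (hGH : ∀ b a, U1 R (fun x a => ¬ RA R B x a) (fun y b => ¬ RA R C y b) b a →
      G b a ∨ H b a) :
    ∃ P Q, Comp R P Q ∧ inner R w P Q ≤ outer R w B C +
      (m2 w (V1 R (fun x a => ¬ RA R B x a) G) + m2 w (V2 R (fun y b => ¬ RA R C y b) H) -
        m2 w (fun b a => G b a ∧ H b a)) -
      m2 w (UB R (fun x a => ¬ RA R B x a) (fun y b => ¬ RA R C y b)) := by
  set E1 : V → V → Prop := fun x a => ¬ RA R B x a with hE1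
  set E2 : V → V → Prop := fun y b => ¬ RA R C y b with hE2
  set U := U1 R E1 E2 with hU
  -- adjacent pairs are not in `U`
  have hUl : ∀ b a, R b a → ¬ U b a := by
    rintro b a hr ⟨⟨x, hx, hx'⟩, _⟩
    exact hx' ⟨b, hr, hBC.l _ _ hx⟩
  have hUr : ∀ b a, R a b → ¬ U b a := by
    rintro b a hr ⟨_, y, hy, hy'⟩
    exact hy' ⟨a, hr, hBC.r _ _ hy⟩
  have hS' : ∀ b a, ¬ U b a → ¬ (∀ x, R x b → RA R B x a) → ∀ y, R y a → RA R C y b := by
    intro b a hu hs y hy
    by_contra hn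
    push Not at hs
    obtain ⟨x, hx, hx'⟩ := hs
    exact hu ⟨⟨x, hx, hx'⟩, y, hy, hn⟩
  set P := PP R B U G H with hP
  set Q := QQ R B U G H with hQ
  have hcomp : Comp R P Q := by
    refine ⟨fun a b h => Or.inl h, fun a b h => Or.inl h, ?_⟩
    intro b a hp hq
    rcases hp with hp | ⟨hp0, hp⟩ <;> rcases hq with hq | ⟨hq0, hq⟩
    · exact hor _ _ hp hq
    · exact absurd hp hq0
    · exact absurd hq hp0
    · rcases hp with hp | hp <;> rcases hq with hq | hq
      · exact absurd hp.2 hq.2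
      · exact absurd (hH _ _ hq.1) hp.1
      · exact absurd (hG _ _ hp.1) hq.1
      · exact absurd hq.1 hp.2
  -- uncovered pairs
  have hunc : ∀ b a, ¬ P b a → ¬ Q a b → G b a ∧ H b a := by
    intro b a hp hq
    have h1 : ¬ R b a := fun h => hp (Or.inl h)
    have h2 : ¬ R a b := fun h => hq (Or.inl h)
    by_cases hu : U b a
    · have h3 := hGH b a hu
      by_cases hg : G b a
      · by_cases hh : H b a
        · exact ⟨hg, hh⟩
        · exact absurd (Or.inr ⟨h2, Or.inr ⟨hg, hh⟩⟩) hp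
      · have hh : H b a := h3.resolve_left hg
        exact absurd (Or.inr ⟨h1, Or.inr ⟨hh, hg⟩⟩) hq
    · by_cases hs : ∀ x, R x b → RA R B x a
      · exact absurd (Or.inr ⟨h2, Or.inl ⟨hu, hs⟩⟩) hp
      · exact absurd (Or.inr ⟨h1, Or.inl ⟨hu, hs⟩⟩) hq
  refine ⟨P, Q, hcomp, ?_⟩
  -- (1)
  have e1 : m2 w P + m2 w (fun b a => Q a b) + m2 w (fun b a => G b a ∧ H b a) ≤
      m2 w (fun _ _ => True) + m2 w (fun b a => b = a) := by
    refine m2_lin32 hw fun b a => ?_
    rw [ind_true trivial]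
    by_cases hgh : G b a ∧ H b a
    · have hu := hG _ _ hgh.1
      have h1 : ¬ R b a := fun h => hUl _ _ h hu
      have h2 : ¬ R a b := fun h => hUr _ _ h hu
      have hp : ¬ P b a := by
        rintro (h | ⟨_, h | h⟩)
        · exact h1 h
        · exact h.1 hu
        · exact h.2 hgh.2
      have hq : ¬ Q a b := by
        rintro (h | ⟨_, h | h⟩)
        · exact h2 h
        · exact h.1 hu
        · exact h.2 hgh.1
      rw [ind_false hp, ind_false hq, ind_true hgh]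
      linarith [ind_nonneg (b = a)]
    · rw [ind_false hgh]
      by_cases hba : b = a
      · rw [ind_true hba]
        linarith [ind_le_one (P b a), ind_le_one (Q a b)]
      · by_cases hp : P b a
        · have hq : ¬ Q a b := fun h => hba (hcomp.ne _ _ hp h)
          rw [ind_false hq]
          linarith [ind_le_one (P b a), ind_nonneg (b = a)]
        · rw [ind_false hp]
          linarith [ind_le_one (Q a b), ind_nonneg (b = a)]
  rw [m2_swap w Q] at e1
  -- (2)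
  have e2 : m2 w (fun _ _ => True) + m2 w (fun b a => b = a) ≤
      m2 w (IR R P) + m2 w (fun a x => RA R C x a) + m2 w (fun a x => V2 R E2 H x a) := by
    refine m2_lin23 hw fun a x => ?_
    rw [ind_true trivial]
    by_cases hax : a = x
    · subst hax
      have h1 : IR R P a a := fun y hy => hcomp.l _ _ hy
      have h2 : RA R C a a := ⟨a, hR a, hBC.r _ _ (hR a)⟩
      rw [ind_true h1, ind_true h2, ind_true rfl]
      linarith [ind_nonneg (V2 R E2 H a a)]
    · rw [ind_false hax]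
      by_cases hi : IR R P a x
      · rw [ind_true hi]
        linarith [ind_nonneg (RA R C x a), ind_nonneg (V2 R E2 H x a)]
      · by_cases hc : RA R C x a
        · rw [ind_true hc]
          linarith [ind_nonneg (IR R P a x), ind_nonneg (V2 R E2 H x a)]
        · have hv : V2 R E2 H x a := by
            refine ⟨hc, ?_⟩
            unfold IR at hi
            push Not at hi
            obtain ⟨y, hy, hPy⟩ := hi
            refine ⟨y, hy, ?_⟩
            -- `¬ P a y`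
            by_contra hHy
            by_cases hq : Q y a
            · rcases hq with hq | ⟨_, hq | hq⟩
              · exact hc ⟨y, hq, hBC.r _ _ hy⟩
              · exact hc (hS' _ _ hq.1 hq.2 x hy)
              · exact hHy hq.1
            · exact hHy (hunc _ _ hPy hq).2
          rw [ind_true hv]
          linarith [ind_nonneg (IR R P a x), ind_nonneg (RA R C x a)]
  rw [m2_swap w (RA R C), m2_swap w (V2 R E2 H)] at e2
  -- (3)
  have e3 : m2 w (fun _ _ => True) + m2 w (fun b a => b = a) ≤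
      m2 w (IR R Q) + m2 w (fun b x => RA R B x b) + m2 w (fun b x => V1 R E1 G x b) := by
    refine m2_lin23 hw fun b x => ?_
    rw [ind_true trivial]
    by_cases hbx : b = x
    · subst hbx
      have h1 : IR R Q b b := fun y hy => hcomp.r _ _ hy
      have h2 : RA R B b b := ⟨b, hR b, hBC.l _ _ (hR b)⟩
      rw [ind_true h1, ind_true h2, ind_true rfl]
      linarith [ind_nonneg (V1 R E1 G b b)]
    · rw [ind_false hbx]
      by_cases hi : IR R Q b x
      · rw [ind_true hi]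
        linarith [ind_nonneg (RA R B x b), ind_nonneg (V1 R E1 G x b)]
      · by_cases hc : RA R B x b
        · rw [ind_true hc]
          linarith [ind_nonneg (IR R Q b x), ind_nonneg (V1 R E1 G x b)]
        · have hv : V1 R E1 G x b := by
            refine ⟨hc, ?_⟩
            unfold IR at hi
            push Not at hi
            obtain ⟨y, hy, hQy⟩ := hi
            refine ⟨y, hy, ?_⟩
            by_contra hGy
            by_cases hp : P y b
            · rcases hp with hp | ⟨_, hp | hp⟩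
              · exact hc ⟨y, hp, hBC.l _ _ hy⟩
              · exact hc (hp.2 x hy)
              · exact hGy hp.1
            · exact hGy (hunc _ _ hp hQy).1
          rw [ind_true hv]
          linarith [ind_nonneg (IR R Q b x), ind_nonneg (RA R B x b)]
  rw [m2_swap w (RA R B), m2_swap w (V1 R E1 G)] at e3
  -- (4)
  have e4 : m2 w B + m2 w (fun x y => C y x) + m2 w (UB R E1 E2) ≤
      m2 w (fun _ _ => True) + m2 w (fun b a => b = a) := by
    refine m2_lin32 hw fun x y => ?_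
    rw [ind_true trivial]
    by_cases hu : UB R E1 E2 x y
    · obtain ⟨⟨a, ha, ha'⟩, b, hb, hb'⟩ := hu
      have h1 : ¬ B x y := fun h => ha' ⟨y, ha, h⟩
      have h2 : ¬ C y x := fun h => hb' ⟨x, hb, h⟩
      rw [ind_false h1, ind_false h2]
      linarith [ind_le_one (UB R E1 E2 x y), ind_nonneg (x = y)]
    · rw [ind_false hu]
      by_cases hxy : x = y
      · rw [ind_true hxy]
        linarith [ind_le_one (B x y), ind_le_one (C y x)]
      · by_cases hB : B x y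
        · have hC : ¬ C y x := fun h => hxy (hBC.ne _ _ hB h)
          rw [ind_false hC]
          linarith [ind_le_one (B x y), ind_nonneg (x = y)]
        · rw [ind_false hB]
          linarith [ind_le_one (C y x), ind_nonneg (x = y)]
  rw [m2_swap w C] at e4
  unfold inner outer
  linarith

/-- (ROT): every lower bound of the inner costs is a lower bound of the outer costs. -/
theorem rot (hR : ∀ a, R a a) (hor : ∀ a b, R a b → R b a → a = b) {w : V → ℝ}
    (hw : ∀ v, 0 ≤ w v) {N0 : ℝ} (hN : ∀ P Q, Comp R P Q → N0 ≤ inner R w P Q)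
    {B C : V → V → Prop} (hBC : Comp R B C) : N0 ≤ outer R w B C := by
  by_contra hlt
  push Not at hlt
  set E1 : V → V → Prop := fun x a => ¬ RA R B x a with hE1
  set E2 : V → V → Prop := fun y b => ¬ RA R C y b with hE2
  obtain ⟨K, hK⟩ := exists_nat_gt (m2 w (fun _ _ => True) / (N0 - outer R w B C))
  have hpos : 0 < N0 - outer R w B C := by linarith
  have hO : 0 ≤ m2 w (fun _ _ => True) := by
    rw [m2_rows]
    exact Finset.sum_nonneg fun a _ => mul_nonneg (hw a) (Wp_nonneg hw _)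
  have hK0 : 0 < K := by
    have : (0 : ℝ) < K := lt_of_le_of_lt (div_nonneg hO hpos.le) hK
    exact_mod_cast this
  have h1 : ∀ k ∈ range K, N0 - outer R w B C + m2 w (UB R E1 E2) ≤
      m2 w (V1 R E1 (Gk R E1 E2 w K k)) + m2 w (V2 R E2 (Hk R E1 E2 w K)) -
        m2 w (fun b a => Gk R E1 E2 w K k b a ∧ Hk R E1 E2 w K b a) := by
    intro k hk
    obtain ⟨P, Q, hPQ, hle⟩ := rot_step hR hor hw hBC
      (G := Gk R E1 E2 w K k) (H := Hk R E1 E2 w K)
      (fun b a h => Gk_sub hw h) (fun b a h => Hk_sub h)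
      (fun b a h => cover hw (mem_range.1 hk).le h)
    have := hN P Q hPQ
    linarith
  have h2 := (Finset.sum_le_sum h1).trans (quad_avg (R := R) (E1 := E1) (E2 := E2) hw hK0)
  rw [Finset.sum_const, card_range, nsmul_eq_mul] at h2
  have h3 : (K : ℝ) * (N0 - outer R w B C) ≤ m2 w (fun _ _ => True) := by linarith
  rw [div_lt_iff₀ hpos] at hK
  linarith

end rot

/-! ### Contradiction with (G) -/

theorem W_eq {w : V → ℝ} {F : Finset V} {S : V → Prop} (h : ∀ v, v ∈ F ↔ S v) :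
    LeadS.W w F = Wp w S := by
  unfold LeadS.W Wp
  rw [← Finset.sum_subset (Finset.subset_univ F)]
  · refine Finset.sum_congr rfl fun v hv => ?_
    rw [ind_true ((h v).1 hv), mul_one]
  · intro v _ hv
    rw [ind_false (fun hs => hv ((h v).2 hs)), mul_zero]

theorem row_G [DecidableEq V] {R : V → V → Prop} (hR : ∀ a, R a a) {w : V → ℝ}
    (hw : ∀ a, 0 < w a)
    (hG : ∀ (a : V) (X : Finset V), a ∈ X → (∀ z, R z a → z ≠ a → z ∉ LeadS.N R X) →
      LeadS.W w (LeadS.N R (LeadS.N R X) \ LeadS.N R X) < LeadS.W w (LeadS.N R X \ X))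
    {P Q : V → V → Prop} (hPQ : Comp R P Q) (a : V) :
    Wp w (RA R (RA R (IR R P)) a) - Wp w (RA R (IR R P) a) <
      Wp w (RA R (IR R P) a) - Wp w (IR R P a) := by
  have hw' : ∀ a, 0 ≤ w a := fun a => (hw a).le
  set X : Finset V := univ.filter (IR R P a) with hX
  have m1 : ∀ v, v ∈ X ↔ IR R P a v := fun v => by simp [hX]
  have m2' : ∀ v, v ∈ LeadS.N R X ↔ RA R (IR R P) a v := fun v => by
    unfold LeadS.N RA
    simp only [mem_filter, mem_univ, true_and, m1]
    constructor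
    · rintro ⟨x, hx, hr⟩; exact ⟨x, hr, hx⟩
    · rintro ⟨x, hr, hx⟩; exact ⟨x, hx, hr⟩
  have m3 : ∀ v, v ∈ LeadS.N R (LeadS.N R X) ↔ RA R (RA R (IR R P)) a v := fun v => by
    unfold LeadS.N
    simp only [mem_filter, mem_univ, true_and]
    constructor
    · rintro ⟨x, hx, hr⟩
      have := (m2' x).1 (by unfold LeadS.N; simpa using hx)
      exact ⟨x, hr, this⟩
    · rintro ⟨x, hr, hx⟩
      have := (m2' x).2 hx
      unfold LeadS.N at this
      exact ⟨x, by simpa using this, hr⟩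
  have h := hG a X ((m1 a).2 fun y hy => hPQ.l _ _ hy) (by
    intro z hz hne hzN
    obtain ⟨x, hx, hx'⟩ := (m2' z).1 hzN
    have hp : P a z := hx' z hx
    exact hne (hPQ.ne _ _ hp (hPQ.r _ _ hz)).symm)
  rw [W_eq (S := fun v => RA R (RA R (IR R P)) a v ∧ ¬ RA R (IR R P) a v)
      (fun v => by rw [mem_sdiff, m3, m2']),
    W_eq (S := fun v => RA R (IR R P) a v ∧ ¬ IR R P a v)
      (fun v => by rw [mem_sdiff, m2', m1])] at h
  rwa [Wp_diff hw' (fun v hv => ⟨v, hR v, hv⟩), Wp_diff hw' (fun v hv => ⟨v, hR v, hv⟩)] at h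

/-- (G) for all admissible sets is contradictory. -/
theorem no_G [DecidableEq V] [Nonempty V] (R : V → V → Prop) (hR : ∀ a, R a a)
    (hor : ∀ a b, R a b → R b a → a = b) (w : V → ℝ) (hw : ∀ a, 0 < w a)
    (hG : ∀ (a : V) (X : Finset V), a ∈ X → (∀ z, R z a → z ≠ a → z ∉ LeadS.N R X) →
      LeadS.W w (LeadS.N R (LeadS.N R X) \ LeadS.N R X) < LeadS.W w (LeadS.N R X \ X)) :
    False := by
  have hw' : ∀ a, 0 ≤ w a := fun a => (hw a).le
  obtain ⟨⟨P, Q⟩, hPQ, hmin⟩ := Set.exists_min_image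
    {p : (V → V → Prop) × (V → V → Prop) | Comp R p.1 p.2}
    (fun p => inner R w p.1 p.2) (Set.toFinite _)
    ⟨(R, R), ⟨fun _ _ h => h, fun _ _ h => h, hor⟩⟩
  have hPQ : Comp R P Q := hPQ
  have hQP : Comp R Q P := ⟨hPQ.r, hPQ.l, fun a b h1 h2 => (hPQ.ne _ _ h2 h1).symm⟩
  have hsub : ∀ {P Q : V → V → Prop}, Comp R P Q → ∀ a b, RA R (IR R P) a b → P a b := by
    rintro P Q _ a b ⟨x, hx, hx'⟩
    exact hx' b hx
  have hBC : Comp R (RA R (IR R P)) (RA R (IR R Q)) := by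
    refine ⟨fun a b h => ⟨a, h, fun y hy => hPQ.l _ _ hy⟩,
      fun a b h => ⟨a, h, fun y hy => hPQ.r _ _ hy⟩, fun a b h1 h2 => ?_⟩
    exact hPQ.ne _ _ (hsub hPQ _ _ h1) (hsub hQP _ _ h2)
  have h1 := rot hR hor hw' (fun P' Q' h => hmin (P', Q') h) hBC
  have key : ∀ {P Q : V → V → Prop}, Comp R P Q →
      m2 w (RA R (RA R (IR R P))) - m2 w (RA R (IR R P)) <
        m2 w (RA R (IR R P)) - m2 w (IR R P) := by
    intro P Q h
    simp only [m2_rows]
    rw [← Finset.sum_sub_distrib, ← Finset.sum_sub_distrib]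
    refine Finset.sum_lt_sum_of_nonempty univ_nonempty fun a _ => ?_
    rw [← mul_sub, ← mul_sub]
    exact mul_lt_mul_of_pos_left (row_G hR hw hG h a) (hw a)
  have h2 := key hPQ
  have h3 := key hQP
  have h4 : m2 w (RA R (IR R P)) ≤ m2 w P := m2_mono hw' (hsub hPQ)
  have h5 : m2 w (RA R (IR R Q)) ≤ m2 w Q := m2_mono hw' (hsub hQP)
  unfold inner outer at h1
  simp only at h1
  linarith

end

end Vale.Agent.P038.H50N
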