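import Vale.Agent.P038.LeadS.Defs

/-!
# The four-part inequality (QUAD)

For a relation `R` and relations `E1`, `E2` on a finite set with weights `w ≥ 0`, the set
`U1` of pairs `(b, a)` which are joined both through `E1` and through `E2` is covered by two
sets `G`, `H` with `w(V1(G)) + w(V2(H)) - w(G ∩ H) ≤ w(UB) + ε`.
-/

namespace Vale.Agent.P038.H50N

open Finset
open scoped Classical

noncomputable section

variable {V : Type*} [Fintype V]

/-- indicator -/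
def ind (p : Prop) : ℝ := if p then 1 else 0

theorem ind_true {p : Prop} (h : p) : ind p = 1 := by simp [ind, h]
theorem ind_false {p : Prop} (h : ¬ p) : ind p = 0 := by simp [ind, h]
theorem ind_nonneg (p : Prop) : 0 ≤ ind p := by unfold ind; split_ifs <;> norm_num
theorem ind_le_one (p : Prop) : ind p ≤ 1 := by unfold ind; split_ifs <;> norm_num

/-- weight of a predicate -/
def Wp (w : V → ℝ) (S : V → Prop) : ℝ := ∑ v, w v * ind (S v)

theorem Wp_mono {w : V → ℝ} (hw : ∀ v, 0 ≤ w v) {S T : V → Prop} (h : ∀ v, S v → T v) :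
    Wp w S ≤ Wp w T := by
  refine Finset.sum_le_sum fun v _ => mul_le_mul_of_nonneg_left ?_ (hw v)
  by_cases hs : S v
  · rw [ind_true hs, ind_true (h v hs)]
  · rw [ind_false hs]; exact ind_nonneg _

theorem Wp_nonneg {w : V → ℝ} (hw : ∀ v, 0 ≤ w v) (S : V → Prop) : 0 ≤ Wp w S :=
  Finset.sum_nonneg fun v _ => mul_nonneg (hw v) (ind_nonneg _)

theorem Wp_false (w : V → ℝ) : Wp w (fun _ => False) = 0 := by
  simp [Wp, ind]

/-- additive comparison with two terms on each side -/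
theorem Wp_lin {w : V → ℝ} (hw : ∀ v, 0 ≤ w v) {S1 S2 T1 T2 : V → Prop}
    (h : ∀ v, ind (S1 v) + ind (S2 v) ≤ ind (T1 v) + ind (T2 v)) :
    Wp w S1 + Wp w S2 ≤ Wp w T1 + Wp w T2 := by
  unfold Wp
  rw [← Finset.sum_add_distrib, ← Finset.sum_add_distrib]
  refine Finset.sum_le_sum fun v _ => ?_
  rw [← mul_add, ← mul_add]
  exact mul_le_mul_of_nonneg_left (h v) (hw v)

/-- covered part of `T` -/
def cov (R : V → V → Prop) (w : V → ℝ) (T Z : V → Prop) : ℝ :=
  Wp w (fun y => T y ∧ ∃ a, Z a ∧ R y a)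

def FF (R : V → V → Prop) (w : V → ℝ) (T : V → Prop) (θ : ℝ) (Z : V → Prop) : ℝ :=
  cov R w T Z - θ * Wp w Z

theorem exists_Mx (R : V → V → Prop) (w : V → ℝ) (T S : V → Prop) (θ : ℝ) :
    ∃ M : V → Prop, (∀ v, M v → S v) ∧
      (∀ Z : V → Prop, (∀ v, Z v → S v) → FF R w T θ M ≤ FF R w T θ Z) ∧
      (∀ Z : V → Prop, (∀ v, Z v → S v) → FF R w T θ (fun v => M v ∨ Z v) ≤ FF R w T θ M →
        ∀ v, Z v → M v) := by
  obtain ⟨M0, hM0, hmin⟩ := Set.exists_min_image {Z : V → Prop | ∀ v, Z v → S v}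
    (FF R w T θ) (Set.toFinite _) ⟨fun _ => False, by simp⟩
  obtain ⟨M, hM, hmax⟩ := Set.exists_max_image
    {Z : V → Prop | (∀ v, Z v → S v) ∧ FF R w T θ Z ≤ FF R w T θ M0}
    (fun Z => ∑ v, ind (Z v)) (Set.toFinite _) ⟨M0, hM0, le_rfl⟩
  refine ⟨M, hM.1, fun Z hZ => hM.2.trans (hmin Z hZ), fun Z hZ hle v hv => ?_⟩
  have h1 : (fun v => M v ∨ Z v) ∈ {Z : V → Prop | (∀ v, Z v → S v) ∧
      FF R w T θ Z ≤ FF R w T θ M0} := by
    refine ⟨fun v hv => ?_, hle.trans hM.2⟩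
    rcases hv with hv | hv
    · exact hM.1 v hv
    · exact hZ v hv
  have h2 := hmax _ h1
  by_contra hn
  have h3 : ∑ u, ind (M u) < ∑ u, ind (M u ∨ Z u) := by
    refine Finset.sum_lt_sum (fun u _ => ?_) ⟨v, mem_univ _, ?_⟩
    · by_cases hu : M u
      · rw [ind_true hu, ind_true (Or.inl hu)]
      · rw [ind_false hu]; exact ind_nonneg _
    · rw [ind_false hn, ind_true (Or.inr hv)]; norm_num
  exact absurd h2 (not_le.2 h3)

/-- the largest minimiser -/
def Mx (R : V → V → Prop) (w : V → ℝ) (T S : V → Prop) (θ : ℝ) : V → Prop :=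
  (exists_Mx R w T S θ).choose

theorem Mx_sub {R : V → V → Prop} {w : V → ℝ} {T S : V → Prop} {θ : ℝ} {v : V}
    (h : Mx R w T S θ v) : S v := (exists_Mx R w T S θ).choose_spec.1 v h

theorem Mx_min {R : V → V → Prop} {w : V → ℝ} {T S : V → Prop} {θ : ℝ} {Z : V → Prop}
    (h : ∀ v, Z v → S v) : FF R w T θ (Mx R w T S θ) ≤ FF R w T θ Z :=
  (exists_Mx R w T S θ).choose_spec.2.1 Z h

theorem Mx_large {R : V → V → Prop} {w : V → ℝ} {T S : V → Prop} {θ : ℝ} {Z : V → Prop}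
    (h : ∀ v, Z v → S v)
    (hle : FF R w T θ (fun v => Mx R w T S θ v ∨ Z v) ≤ FF R w T θ (Mx R w T S θ)) {v : V}
    (hv : Z v) : Mx R w T S θ v :=
  (exists_Mx R w T S θ).choose_spec.2.2 Z h hle v hv

/-- monotonicity of the largest minimisers -/
theorem Mx_mono {R : V → V → Prop} {w : V → ℝ} (hw : ∀ v, 0 ≤ w v) {T1 T2 S1 S2 : V → Prop}
    {θ1 θ2 : ℝ} (hT : ∀ v, T1 v → T2 v) (hS : ∀ v, S2 v → S1 v) (hθ : θ2 ≤ θ1) {v : V}
    (hv : Mx R w T2 S2 θ2 v) : Mx R w T1 S1 θ1 v := by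
  set M1 := Mx R w T1 S1 θ1 with hM1
  set M2 := Mx R w T2 S2 θ2 with hM2
  refine Mx_large (Z := M2) (fun v hv => hS v (Mx_sub hv)) ?_ hv
  rw [← hM1]
  have hmin : FF R w T2 θ2 M2 ≤ FF R w T2 θ2 (fun v => M2 v ∧ M1 v) :=
    Mx_min fun v hv => Mx_sub hv.1
  -- modular part
  have hmod : Wp w (fun v => M1 v ∨ M2 v) + Wp w (fun v => M2 v ∧ M1 v) = Wp w M1 + Wp w M2 := by
    refine le_antisymm (Wp_lin hw fun v => ?_) (Wp_lin hw fun v => ?_) <;>
    · by_cases h1 : M1 v <;> by_cases h2 : M2 v <;> simp [ind, h1, h2]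
  -- covered part
  have hcov : cov R w T1 (fun v => M1 v ∨ M2 v) + cov R w T2 (fun v => M2 v ∧ M1 v) ≤
      cov R w T1 M1 + cov R w T2 M2 := by
    refine Wp_lin hw fun y => ?_
    by_cases hA : T1 y ∧ ∃ a, M1 a ∧ R y a
    · rw [ind_true hA]
      have h1 : ind (T1 y ∧ ∃ a, (M1 a ∨ M2 a) ∧ R y a) ≤ 1 := ind_le_one _
      have h2 : ind (T2 y ∧ ∃ a, (M2 a ∧ M1 a) ∧ R y a) ≤ ind (T2 y ∧ ∃ a, M2 a ∧ R y a) := by
        by_cases h : T2 y ∧ ∃ a, (M2 a ∧ M1 a) ∧ R y a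
        · rw [ind_true h]
          obtain ⟨hy, a, ha, hr⟩ := h
          rw [ind_true ⟨hy, a, ha.1, hr⟩]
        · rw [ind_false h]; exact ind_nonneg _
      linarith
    · rw [ind_false hA]
      by_cases hB : T1 y ∧ ∃ a, (M1 a ∨ M2 a) ∧ R y a
      · obtain ⟨hy, a, ha, hr⟩ := hB
        have hM2 : M2 a := by
          rcases ha with ha | ha
          · exact absurd ⟨hy, a, ha, hr⟩ hA
          · exact ha
        have h3 : ¬ (T2 y ∧ ∃ a, (M2 a ∧ M1 a) ∧ R y a) := by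
          rintro ⟨_, a', ha', hr'⟩
          exact hA ⟨hy, a', ha'.2, hr'⟩
        rw [ind_false h3, ind_true (p := T2 y ∧ ∃ a, M2 a ∧ R y a) ⟨hT y hy, a, hM2, hr⟩]
        have := ind_le_one (T1 y ∧ ∃ a, (M1 a ∨ M2 a) ∧ R y a)
        linarith
      · rw [ind_false hB]
        have h2 : ind (T2 y ∧ ∃ a, (M2 a ∧ M1 a) ∧ R y a) ≤ ind (T2 y ∧ ∃ a, M2 a ∧ R y a) := by
          by_cases h : T2 y ∧ ∃ a, (M2 a ∧ M1 a) ∧ R y a
          · rw [ind_true h]
            obtain ⟨hy, a, ha, hr⟩ := h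
            rw [ind_true ⟨hy, a, ha.1, hr⟩]
          · rw [ind_false h]; exact ind_nonneg _
        linarith
  have hW : Wp w (fun v => M2 v ∧ M1 v) ≤ Wp w M2 := Wp_mono hw fun v hv => hv.1
  unfold FF at hmin ⊢
  have e : Wp w (fun v => M1 v ∨ M2 v) =
      Wp w M1 + Wp w M2 - Wp w (fun v => M2 v ∧ M1 v) := by linarith
  rw [e]
  nlinarith [mul_nonneg (sub_nonneg.2 hθ) (sub_nonneg.2 hW)]

/-- uncovered points belong to the largest minimiser -/
theorem Mx_of_uncov {R : V → V → Prop} {w : V → ℝ} (hw : ∀ v, 0 ≤ w v) {T S : V → Prop}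
    {θ : ℝ} (hθ : 0 ≤ θ) {a : V} (ha : S a) (h : ¬ ∃ y, T y ∧ R y a) : Mx R w T S θ a := by
  refine Mx_large (Z := fun v => v = a) (fun v hv => hv ▸ ha) ?_ rfl
  set M := Mx R w T S θ
  have h1 : cov R w T (fun v => M v ∨ v = a) ≤ cov R w T M := by
    refine Wp_mono hw ?_
    rintro y ⟨hy, c, hc, hr⟩
    rcases hc with hc | hc
    · exact ⟨hy, c, hc, hr⟩
    · subst hc; exact absurd ⟨y, hy, hr⟩ h
  have h2 : Wp w M ≤ Wp w (fun v => M v ∨ v = a) := Wp_mono hw fun v hv => Or.inl hv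
  unfold FF
  nlinarith [mul_le_mul_of_nonneg_left h2 hθ]

/-! ### Telescoping over the thresholds `k / K` -/

theorem FF_shift (R : V → V → Prop) (w : V → ℝ) (T Z : V → Prop) (θ δ : ℝ) :
    FF R w T (θ + δ) Z = FF R w T θ Z - δ * Wp w Z := by
  unfold FF; ring

/-- the minimiser for the threshold `k / K` -/
def Mk (R : V → V → Prop) (w : V → ℝ) (T S : V → Prop) (K k : ℕ) : V → Prop :=
  Mx R w T S ((k : ℝ) / K)

theorem tele1 {R : V → V → Prop} {w : V → ℝ} {T S : V → Prop} {K : ℕ} (n : ℕ) :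
    FF R w T ((n : ℝ) / K) (Mk R w T S K n) ≤
      FF R w T 0 (Mk R w T S K 0) - (1 / (K : ℝ)) * ∑ k ∈ range n, Wp w (Mk R w T S K k) := by
  induction n with
  | zero => simp
  | succ n ih =>
    have h1 : FF R w T (((n + 1 : ℕ) : ℝ) / K) (Mk R w T S K (n + 1)) ≤
        FF R w T (((n + 1 : ℕ) : ℝ) / K) (Mk R w T S K n) :=
      Mx_min fun v hv => Mx_sub hv
    have h2 : (((n + 1 : ℕ) : ℝ) / K) = (n : ℝ) / K + 1 / K := by push_cast; ring
    rw [h2] at h1
    rw [FF_shift R w T (Mk R w T S K n)] at h1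
    rw [h2, Finset.sum_range_succ, mul_add]
    linarith

theorem tele2 {R : V → V → Prop} {w : V → ℝ} {T S : V → Prop} {K : ℕ} (n : ℕ) :
    FF R w T 0 (Mk R w T S K 0) ≤ FF R w T ((n : ℝ) / K) (Mk R w T S K n) +
      (1 / (K : ℝ)) * ∑ k ∈ range n, Wp w (Mk R w T S K (k + 1)) := by
  induction n with
  | zero => simp
  | succ n ih =>
    have h1 : FF R w T ((n : ℝ) / K) (Mk R w T S K n) ≤
        FF R w T ((n : ℝ) / K) (Mk R w T S K (n + 1)) :=
      Mx_min fun v hv => Mx_sub hv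
    have h2 : (((n + 1 : ℕ) : ℝ) / K) = (n : ℝ) / K + 1 / K := by push_cast; ring
    rw [h2, FF_shift R w T (Mk R w T S K (n + 1)), Finset.sum_range_succ, mul_add]
    linarith

theorem cov_nonneg {R : V → V → Prop} {w : V → ℝ} (hw : ∀ v, 0 ≤ w v) (T Z : V → Prop) :
    0 ≤ cov R w T Z := Wp_nonneg hw _

theorem FF_zero {R : V → V → Prop} {w : V → ℝ} (hw : ∀ v, 0 ≤ w v) (T S : V → Prop) (K : ℕ) :
    FF R w T 0 (Mk R w T S K 0) = 0 := by
  have h1 : FF R w T 0 (Mk R w T S K 0) ≤ FF R w T 0 (fun _ => False) := by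
    have := Mx_min (R := R) (w := w) (T := T) (S := S) (θ := ((0 : ℕ) : ℝ) / K)
      (Z := fun _ => False) (by simp)
    simpa [Mk] using this
  have h2 : FF R w T 0 (fun _ => False) = 0 := by
    simp [FF, cov, Wp, ind]
  have h3 : 0 ≤ FF R w T 0 (Mk R w T S K 0) := by
    unfold FF
    have := cov_nonneg hw T (Mk R w T S K 0) (R := R)
    simpa using this
  linarith

/-- difference of nested predicates -/
theorem Wp_diff {w : V → ℝ} (hw : ∀ v, 0 ≤ w v) {S T : V → Prop} (h : ∀ v, T v → S v) :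
    Wp w (fun v => S v ∧ ¬ T v) = Wp w S - Wp w T := by
  have h1 : Wp w (fun v => S v ∧ ¬ T v) + Wp w T = Wp w S + Wp w (fun _ => False) := by
    refine le_antisymm (Wp_lin hw fun v => ?_) (Wp_lin hw fun v => ?_) <;>
    · by_cases h1 : S v <;> by_cases h2 : T v
      all_goals first
        | exact absurd (h v h2) h1
        | simp [ind, h1, h2]
  rw [Wp_false] at h1
  linarith

/-- column estimate -/
theorem col_est {R : V → V → Prop} {w : V → ℝ} (hw : ∀ v, 0 ≤ w v) (T S : V → Prop)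
    {K : ℕ} (hK : 0 < K) :
    (K : ℝ) * cov R w T (Mk R w T S K K) ≤
      ∑ k ∈ range K, Wp w (fun v => Mk R w T S K K v ∧ ¬ Mk R w T S K k v) := by
  have hK' : (0 : ℝ) < K := by exact_mod_cast hK
  have h1 := tele1 (R := R) (w := w) (T := T) (S := S) (K := K) K
  rw [FF_zero hw, div_self hK'.ne'] at h1
  have h2 : ∀ k ∈ range K, Wp w (fun v => Mk R w T S K K v ∧ ¬ Mk R w T S K k v) =
      Wp w (Mk R w T S K K) - Wp w (Mk R w T S K k) := by
    intro k hk
    refine Wp_diff hw fun v hv => Mx_mono hw (fun _ h => h) (fun _ h => h) ?_ hv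
    have : (k : ℝ) ≤ K := by exact_mod_cast (mem_range.1 hk).le
    exact div_le_div_of_nonneg_right this hK'.le
  rw [Finset.sum_congr rfl h2, Finset.sum_sub_distrib, Finset.sum_const, card_range,
    nsmul_eq_mul]
  unfold FF at h1
  have h3 : (K : ℝ) * (cov R w T (Mk R w T S K K) - 1 * Wp w (Mk R w T S K K)) ≤
      K * (0 - 1 / (K : ℝ) * ∑ k ∈ range K, Wp w (Mk R w T S K k)) :=
    mul_le_mul_of_nonneg_left h1 hK'.le
  have h4 : (K : ℝ) * (0 - 1 / (K : ℝ) * ∑ k ∈ range K, Wp w (Mk R w T S K k)) =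
      - ∑ k ∈ range K, Wp w (Mk R w T S K k) := by
    field_simp
    ring
  rw [h4] at h3
  linarith

/-- row estimate -/
theorem row_est {R : V → V → Prop} {w : V → ℝ} (hw : ∀ v, 0 ≤ w v) (T S : V → Prop)
    {K : ℕ} (hK : 0 < K) :
    ∑ k ∈ range K, Wp w (fun v => S v ∧ ¬ Mk R w T S K k v) ≤
      (K : ℝ) * cov R w T S + Wp w (fun _ => True) := by
  have hK' : (0 : ℝ) < K := by exact_mod_cast hK
  have h1 := tele2 (R := R) (w := w) (T := T) (S := S) (K := K) K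
  rw [FF_zero hw, div_self hK'.ne'] at h1
  have h0 : FF R w T 1 (Mk R w T S K K) ≤ FF R w T 1 S := by
    have := Mx_min (R := R) (w := w) (T := T) (S := S) (θ := ((K : ℕ) : ℝ) / K)
      (Z := S) (fun v hv => hv)
    rw [div_self hK'.ne'] at this
    simpa [Mk, div_self hK'.ne'] using this
  have h2 : ∀ k ∈ range K, Wp w (fun v => S v ∧ ¬ Mk R w T S K k v) =
      Wp w S - Wp w (Mk R w T S K k) := by
    intro k hk
    exact Wp_diff hw fun v hv => Mx_sub hv
  rw [Finset.sum_congr rfl h2, Finset.sum_sub_distrib, Finset.sum_const, card_range,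
    nsmul_eq_mul]
  have h5 : ∑ k ∈ range K, Wp w (Mk R w T S K (k + 1)) ≤
      ∑ k ∈ range K, Wp w (Mk R w T S K k) + Wp w (fun _ => True) := by
    have h6 := Finset.sum_range_succ' (fun k => Wp w (Mk R w T S K k)) K
    have h7 := Finset.sum_range_succ (fun k => Wp w (Mk R w T S K k)) K
    have h8 : Wp w (Mk R w T S K K) ≤ Wp w (fun _ => True) := Wp_mono hw fun _ _ => trivial
    have h9 : 0 ≤ Wp w (Mk R w T S K 0) := Wp_nonneg hw _
    linarith
  have h3 : (K : ℝ) * 0 ≤ K * (FF R w T 1 S +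
      1 / (K : ℝ) * ∑ k ∈ range K, Wp w (Mk R w T S K (k + 1))) :=
    mul_le_mul_of_nonneg_left (by linarith) hK'.le
  have h4 : (K : ℝ) * (FF R w T 1 S + 1 / (K : ℝ) * ∑ k ∈ range K, Wp w (Mk R w T S K (k + 1))) =
      K * FF R w T 1 S + ∑ k ∈ range K, Wp w (Mk R w T S K (k + 1)) := by
    field_simp
  rw [h4] at h3
  unfold FF at h3
  linarith

end

end Vale.Agent.P038.H50N
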